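import Vale.Agent.P194.VirtLI.Tower
import Vale.Agent.P194.Main

/-!
Stable finiteness of group algebras of residually virtually locally indicable groups.
-/

namespace Vale.Agent.P194.VirtLI

open MonoidAlgebra Matrix

variable {K : Type} [Field K]

/-- Stable finiteness over a locally indicable group. -/
theorem isStablyFinite_of_li {G : Type} [Group G] (hG : LocallyIndicable G) :
    IsStablyFiniteRing (MonoidAlgebra K G) := by
  refine ⟨fun n => ⟨fun {a b} hab => ?_⟩⟩
  have hidem : (1 - b * a) * (b * a) = 0 := by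
    rw [sub_mul, one_mul, show b * a * (b * a) = b * (a * b) * a by simp only [mul_assoc], hab,
      mul_one, sub_self]
  have heps : (b * a).map (eps (K := K) (G := G)) = 1 := by
    rw [Matrix.map_mul]
    exact mul_eq_one_comm.1 (by rw [← Matrix.map_mul, hab, Matrix.map_one _ (map_zero _) (map_one _)])
  have hinj := rowInjective_of_eps hG (b * a) (fun y hy => by rwa [heps, vecMul_one] at hy)
  have : (1 - b * a) = 0 := by
    funext i
    exact hinj _ (by rw [← mul_apply_eq_vecMul, hidem]; rfl)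
  exact (sub_eq_zero.1 this).symm

section Index

variable {G : Type} [Group G] (L : Subgroup G)

/-- The cocycle of the coset section. -/
noncomputable def cocycle (g : G) (q : G ⧸ L) : L :=
  ⟨(g • q).out⁻¹ * (g * q.out), QuotientGroup.eq.1 ((QuotientGroup.out_eq' (g • q)).trans (by
    conv_lhs => rw [← QuotientGroup.out_eq' q]
    rfl))⟩

lemma cocycle_mul (g h : G) (q : G ⧸ L) :
    cocycle L (g * h) q = cocycle L g (h • q) * cocycle L h q := by
  refine Subtype.ext ?_
  simp only [cocycle, Subgroup.coe_mul, mul_smul]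
  group

variable [Fintype (G ⧸ L)] [DecidableEq (G ⧸ L)]

/-- The monomial matrix of a group element. -/
noncomputable def mono : G →* Matrix (G ⧸ L) (G ⧸ L) (MonoidAlgebra K L) where
  toFun g := Matrix.of fun p q => if p = g • q then MonoidAlgebra.single (cocycle L g q) 1 else 0
  map_one' := by
    ext1 p q
    have : cocycle L 1 q = 1 := Subtype.ext (by simp [cocycle])
    simp [Matrix.one_apply, this, ← one_def]
  map_mul' g h := by
    ext1 p q
    simp only [Matrix.mul_apply, Matrix.of_apply]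
    rw [Finset.sum_eq_single_of_mem (h • q) (Finset.mem_univ _)
      (fun r _ hr => by rw [if_neg hr, mul_zero]), if_pos rfl, mul_smul, cocycle_mul]
    split_ifs with hp
    · rw [single_mul_single, one_mul]
    · rw [zero_mul]

/-- The coset embedding. -/
noncomputable def rho : MonoidAlgebra K G →ₐ[K] Matrix (G ⧸ L) (G ⧸ L) (MonoidAlgebra K L) :=
  MonoidAlgebra.lift K _ G (mono L)

lemma rho_injective : Function.Injective (rho (K := K) L) := by
  classical
  rw [injective_iff_map_eq_zero]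
  intro x hx
  refine coeff_injective (Finsupp.ext fun g => ?_)
  let q₀ : G ⧸ L := QuotientGroup.mk 1
  have h0 := congrArg (fun M : Matrix (G ⧸ L) (G ⧸ L) (MonoidAlgebra K L) =>
    (M (g • q₀) q₀).coeff (cocycle L g q₀)) hx
  rw [rho, MonoidAlgebra.lift_apply] at h0
  simp only [mono, Finsupp.sum, Matrix.sum_apply, Matrix.smul_apply, Matrix.of_apply, coeff_sum,
    Finsupp.finsetSum_apply, MonoidHom.coe_mk, OneHom.coe_mk, Matrix.zero_apply, coeff_zero,
    Finsupp.zero_apply] at h0
  rw [coeff_zero, Finsupp.zero_apply, ← h0]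
  rw [Finset.sum_eq_single g]
  · simp
  · intro u _ hu
    split_ifs with hp
    · have hne : cocycle L u q₀ ≠ cocycle L g q₀ := fun he => hu (by
        have := congrArg Subtype.val he
        simp only [cocycle, ← hp] at this
        exact mul_right_cancel (mul_left_cancel this))
      simp [hne]
    · simp
  · intro hg
    simp [Finsupp.notMem_support_iff.1 hg]

theorem isStablyFinite_of_finiteIndex [IsStablyFiniteRing (MonoidAlgebra K L)] :
    IsStablyFiniteRing (MonoidAlgebra K G) := by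
  classical
  exact IsStablyFiniteRing.of_injective (rho (K := K) L) (rho_injective L)

end Index

/-- A subgroup of finite index which is locally indicable. -/
def VirtuallyLI (G : Type) [Group G] : Prop :=
  ∃ L : Subgroup G, L.FiniteIndex ∧ LocallyIndicable L

theorem isStablyFinite_of_virtually {G : Type} [Group G] (h : VirtuallyLI G) :
    IsStablyFiniteRing (MonoidAlgebra K G) := by
  classical
  obtain ⟨L, hL, hli⟩ := h
  have := hL
  have : Fintype (G ⧸ L) := L.fintypeQuotientOfFiniteIndex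
  have := isStablyFinite_of_li (K := K) hli
  exact isStablyFinite_of_finiteIndex L

lemma virtuallyLI_pi {ι : Type} [Finite ι] (Q : ι → Type) [∀ t, Group (Q t)]
    (h : ∀ t, VirtuallyLI (Q t)) : VirtuallyLI (∀ t, Q t) := by
  classical
  choose L hL hli using h
  refine ⟨⨅ t, (L t).comap (Pi.evalMonoidHom Q t), ?_, fun H hH hne => ?_⟩
  · refine finiteIndex_iInf' _ fun t => ⟨?_⟩
    rw [(L t).index_comap_of_surjective (Function.surjective_eval t)]
    exact (hL t).index_ne_zero
  · obtain ⟨u, hu, hu1⟩ := (Subgroup.bot_or_exists_ne_one H).resolve_left hne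
    have hex : ∃ t, (u : ∀ t, Q t) t ≠ 1 := by
      by_contra hc
      push Not at hc
      exact hu1 (Subtype.ext (funext hc))
    obtain ⟨t, ht⟩ := hex
    let π : ↥(⨅ t, (L t).comap (Pi.evalMonoidHom Q t)) →* L t :=
      ((Pi.evalMonoidHom Q t).comp (Subgroup.subtype _)).codRestrict (L t) fun v =>
        (Subgroup.mem_iInf.1 v.2 t : _)
    have hnb : H.map π ≠ ⊥ := fun he => ht (by
      have : π u ∈ H.map π := Subgroup.mem_map_of_mem π hu
      rw [he, Subgroup.mem_bot] at this
      exact congrArg Subtype.val this)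
    have hfg : (H.map π).FG := (Subgroup.fg_iff_submonoid_fg _).2
      (((Subgroup.fg_iff_submonoid_fg H).1 hH).map π)
    obtain ⟨ψ, hψ⟩ := hli t (H.map π) hfg hnb
    refine ⟨ψ.comp (π.subgroupMap H), fun he => hψ (MonoidHom.ext fun v => ?_)⟩
    obtain ⟨w, rfl⟩ := π.subgroupMap_surjective H v
    exact DFunLike.congr_fun he w

/-- Stable finiteness for residually virtually locally indicable groups. -/
theorem stablyFinite_of_residually {G : Type} [Group G] {n : ℕ}
    (hres : ∀ g : G, g ≠ 1 → ∃ (Q : Type) (_ : Group Q) (π : G →* Q),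
      π g ≠ 1 ∧ VirtuallyLI Q)
    (a b : Matrix (Fin n) (Fin n) (MonoidAlgebra K G)) (hab : a * b = 1) : b * a = 1 := by
  classical
  set e := 1 - b * a with he
  let T := ((supp e ×ˢ supp e).image fun q => q.1⁻¹ * q.2).filter fun t => t ≠ 1
  choose Q hQ π hπ hv using fun t : T => hres t.1 (Finset.mem_filter.1 t.2).2
  let Φ : G →* (∀ t, Q t) := MonoidHom.pi π
  have hsf := isStablyFinite_of_virtually (K := K) (virtuallyLI_pi Q hv)
  have himg : mm Φ e = 0 := by
    have h1 : mm Φ a * mm Φ b = 1 := by rw [← map_mul, hab, map_one]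
    rw [he, map_sub, map_one, map_mul, mul_eq_one_symm h1, sub_self]
  have hzero : mm (MonoidHom.id G) e = 0 := mm_eq_zero_of_factor Φ _ e himg fun x hx y hy hxy => by
    by_contra hne
    have ht : x⁻¹ * y ∈ T := Finset.mem_filter.2
      ⟨Finset.mem_image.2 ⟨(x, y), Finset.mem_product.2 ⟨hx, hy⟩, rfl⟩,
        fun h1 => hne (inv_mul_eq_one.1 h1)⟩
    have h2 : π ⟨_, ht⟩ x = π ⟨_, ht⟩ y := congrFun hxy ⟨_, ht⟩
    exact hπ ⟨_, ht⟩ (by rw [map_mul, map_inv, h2, inv_mul_cancel])
  exact (sub_eq_zero.1 (eq_zero_of_mm_id e hzero)).symm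

/-- In characteristic `p`: finite `p`-kernels over residually virtually LI quotients. -/
theorem stablyFinite_of_residual_p (p : ℕ) [Fact p.Prime] [CharP K p] {G : Type} [Group G] {n : ℕ}
    (hres : ∀ g : G, g ≠ 1 → ∃ M N : Subgroup G, M.Normal ∧ N.Normal ∧ M ≤ N ∧ g ∉ M ∧
      M.relIndex N ≠ 0 ∧ (∀ x ∈ N, ∃ k : ℕ, x ^ p ^ k ∈ M) ∧
      ∀ x, x ∉ N → ∃ (Q : Type) (_ : Group Q) (π : G →* Q),
        N ≤ π.ker ∧ π x ≠ 1 ∧ VirtuallyLI Q)
    (a b : Matrix (Fin n) (Fin n) (MonoidAlgebra K G)) (hab : a * b = 1) : b * a = 1 := by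
  classical
  set e := 1 - b * a with he
  have hidem : e * e = e := by
    have : b * a * (b * a) = b * a := by rw [mul_assoc, ← mul_assoc a, hab, one_mul]
    rw [he, sub_mul, one_mul, mul_sub, mul_one, this]
    abel
  let T := ((supp e ×ˢ supp e).image fun q => q.1⁻¹ * q.2).filter fun t => t ≠ 1
  choose M N hM hN hle hgM hidx hpow hrf using
    fun t : T => hres t.1 (Finset.mem_filter.1 t.2).2
  let M' := ⨅ t, M t
  let N' := ⨅ t, N t
  have hM' : M'.Normal := Subgroup.normal_iInf_normal hM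
  have hN' : N'.Normal := Subgroup.normal_iInf_normal hN
  have hsep : ∀ x ∈ supp e, ∀ y ∈ supp e, x⁻¹ * y ∈ M' → x = y := by
    intro x hx y hy hxy
    by_contra hne
    have ht : x⁻¹ * y ∈ T := Finset.mem_filter.2
      ⟨Finset.mem_image.2 ⟨(x, y), Finset.mem_product.2 ⟨hx, hy⟩, rfl⟩,
        fun h => hne (inv_mul_eq_one.1 h)⟩
    exact hgM ⟨_, ht⟩ (Subgroup.mem_iInf.1 hxy _)
  -- image in K[G/N'] vanishes, by finite quotients
  have hN0 : mm (QuotientGroup.mk' N') e = 0 := by
    let T₂ := ((supp e ×ˢ supp e).image fun q => q.1⁻¹ * q.2).filter fun t => t ∉ N'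
    have hH : ∀ t : T₂, ∃ (Q : Type) (_ : Group Q) (π : G →* Q),
        N' ≤ π.ker ∧ π t.1 ≠ 1 ∧ VirtuallyLI Q := by
      intro t
      obtain ⟨i, hi⟩ : ∃ i, t.1 ∉ N i := by
        by_contra h
        push Not at h
        exact (Finset.mem_filter.1 t.2).2 (Subgroup.mem_iInf.2 h)
      obtain ⟨Q, iQ, π, h1, h2, h3⟩ := hrf i t.1 hi
      exact ⟨Q, iQ, π, (iInf_le N i).trans h1, h2, h3⟩
    choose Q hQ π hπle hπ hv using hH
    let Φ : G →* (∀ t, Q t) := MonoidHom.pi π
    have hsf := isStablyFinite_of_virtually (K := K) (virtuallyLI_pi Q hv)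
    have h0 : mm Φ e = 0 := by
      have h1 : mm Φ a * mm Φ b = 1 := by rw [← map_mul, hab, map_one]
      rw [he, map_sub, map_one, map_mul, mul_eq_one_symm h1, sub_self]
    refine mm_eq_zero_of_factor Φ _ e h0 fun x hx y hy hxy => ?_
    refine QuotientGroup.eq.2 ?_
    by_contra hne
    have ht : x⁻¹ * y ∈ T₂ := Finset.mem_filter.2
      ⟨Finset.mem_image.2 ⟨(x, y), Finset.mem_product.2 ⟨hx, hy⟩, rfl⟩, hne⟩
    have h2 : π ⟨_, ht⟩ x = π ⟨_, ht⟩ y := congrFun hxy ⟨_, ht⟩
    exact hπ ⟨_, ht⟩ (by rw [map_mul, map_inv, h2, inv_mul_cancel])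
  -- hence the image in K[G/M'] vanishes
  let q₁ := QuotientGroup.mk' M'
  let q₂ : G ⧸ M' →* G ⧸ N' := QuotientGroup.map M' N' (MonoidHom.id G) (iInf_mono hle)
  have hcomp : mm q₂ (mm q₁ e) = 0 := by
    refine Matrix.ext fun i j => MonoidAlgebra.coeff_injective ?_
    rw [mm_apply, mm_apply, ← Finsupp.mapDomain_comp]
    have : (q₂ ∘ q₁ : G → G ⧸ N') = QuotientGroup.mk' N' := rfl
    rw [this, ← mm_apply, hN0]
  have hkmem : ∀ z : q₂.ker, ∃ x ∈ N', q₁ x = z.1 := by
    rintro ⟨z, hz⟩
    obtain ⟨x, rfl⟩ := QuotientGroup.mk'_surjective M' z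
    exact ⟨x, (QuotientGroup.eq_one_iff x).1 hz, rfl⟩
  have : Finite q₂.ker := by
    have hne : M'.relIndex N' ≠ 0 := by
      refine Subgroup.relIndex_iInf_ne_zero fun t => ?_
      exact fun h => hidx t (Subgroup.relIndex_eq_zero_of_le_right (iInf_le N t) h)
    have : Finite (N' ⧸ M'.subgroupOf N') := Nat.finite_of_card_ne_zero hne
    choose x hx hxz using hkmem
    refine Finite.of_injective
      (fun z => ((⟨x z, hx z⟩ : N') : N' ⧸ M'.subgroupOf N')) fun z w hzw => Subtype.ext ?_
    rw [← hxz z, ← hxz w]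
    have h : ((⟨x z, hx z⟩ : N') : N' ⧸ M'.subgroupOf N')
        = ((⟨x w, hx w⟩ : N') : N' ⧸ M'.subgroupOf N') := hzw
    rw [QuotientGroup.eq, Subgroup.mem_subgroupOf] at h
    exact QuotientGroup.eq.2 (by simpa using h)
  have hqp : IsPGroup p q₂.ker := by
    intro z
    obtain ⟨x, hx, hxz⟩ := hkmem z
    choose k hk using fun t => hpow t x (Subgroup.mem_iInf.1 hx t)
    refine ⟨∑ t, k t, Subtype.ext ?_⟩
    rw [Subgroup.coe_pow, ← hxz, ← map_pow, Subgroup.coe_one]
    refine (QuotientGroup.eq_one_iff _).2 (Subgroup.mem_iInf.2 fun t => ?_)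
    obtain ⟨c, hc⟩ := pow_dvd_pow p (Finset.single_le_sum (fun i _ => Nat.zero_le (k i))
      (Finset.mem_univ t))
    rw [hc, pow_mul]
    exact pow_mem (hk t) c
  have hM0 : mm q₁ e = 0 := idempotent_eq_zero p q₂ hqp _ (by rw [← map_mul, hidem]) hcomp
  have hid := mm_eq_zero_of_factor q₁ (MonoidHom.id G) e hM0
    fun x hx y hy hxy => hsep x hx y hy (QuotientGroup.eq.1 hxy)
  exact (sub_eq_zero.1 (eq_zero_of_mm_id e hid)).symm

end Vale.Agent.P194.VirtLI
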