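import Mathlib

/-!
Matrices over group algebras of locally indicable groups: if the augmented matrix is injective,
so is the matrix.
-/

namespace Vale.Agent.P194.VirtLI

open MonoidAlgebra Matrix
open scoped BigOperators

/-- Every nontrivial finitely generated subgroup maps onto the integers. -/
def LocallyIndicable (G : Type) [Group G] : Prop :=
  ∀ H : Subgroup G, H.FG → H ≠ ⊥ → ∃ ψ : H →* Multiplicative ℤ, ψ ≠ 1

variable {K : Type} [Field K] {G : Type} [Group G]

set_option linter.unusedSectionVars false

/-- The augmentation. -/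
noncomputable def eps : MonoidAlgebra K G →ₐ[K] K := MonoidAlgebra.lift K K G (1 : G →* K)

lemma eps_single (g : G) (c : K) : eps (MonoidAlgebra.single g c : MonoidAlgebra K G) = c := by
  simp [eps]

lemma eq_sum_single (x : MonoidAlgebra K G) :
    x = ∑ g ∈ x.coeff.support, MonoidAlgebra.single g (x.coeff g) := by
  refine coeff_injective ?_
  simp only [coeff_sum, coeff_single]
  exact (Finsupp.sum_single x.coeff).symm

/-- The part of degree `a`. -/
noncomputable def part (deg : G → ℤ) (a : ℤ) (x : MonoidAlgebra K G) : MonoidAlgebra K G :=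
  ofCoeff (x.coeff.filter fun g => deg g = a)

lemma part_add (deg : G → ℤ) (a : ℤ) (x y : MonoidAlgebra K G) :
    part deg a (x + y) = part deg a x + part deg a y := by
  simp [part, Finsupp.filter_add]

lemma part_zero (deg : G → ℤ) (a : ℤ) : part deg a (0 : MonoidAlgebra K G) = 0 := by
  refine coeff_injective (Finsupp.ext fun g => ?_)
  simp [part, Finsupp.filter_apply]

lemma part_sum {ι : Type} (deg : G → ℤ) (a : ℤ) (s : Finset ι) (f : ι → MonoidAlgebra K G) :
    part deg a (∑ i ∈ s, f i) = ∑ i ∈ s, part deg a (f i) := by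
  classical
  induction s using Finset.induction_on with
  | empty => simp [part_zero]
  | insert i s hi ih => simp [Finset.sum_insert hi, part_add, ih]

lemma part_single (deg : G → ℤ) (a : ℤ) (g : G) (c : K) :
    part deg a (MonoidAlgebra.single g c) = if deg g = a then MonoidAlgebra.single g c else 0 := by
  unfold part
  split_ifs with h
  · rw [coeff_single, Finsupp.filter_single_of_pos (fun g => deg g = a) h]
    rfl
  · rw [coeff_single, Finsupp.filter_single_of_neg (fun g => deg g = a) h, ofCoeff_zero]

lemma sum_card_part (deg : G → ℤ) (x : MonoidAlgebra K G) (s : Finset ℤ)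
    (hs : ∀ g ∈ x.coeff.support, deg g ∈ s) :
    ∑ a ∈ s, (part deg a x).coeff.support.card = x.coeff.support.card := by
  classical
  rw [Finset.card_eq_sum_card_fiberwise hs]
  refine Finset.sum_congr rfl fun a _ => ?_
  simp [part, Finsupp.support_filter]

/-- A product is graded when `deg` is additive on the supports. -/
lemma part_mul (deg : G → ℤ) (c : ℤ) (x y : MonoidAlgebra K G) (L : Finset ℤ)
    (hL : ∀ g ∈ x.coeff.support, deg g ∈ L)
    (hdeg : ∀ g ∈ x.coeff.support, ∀ h ∈ y.coeff.support, deg (g * h) = deg g + deg h) :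
    part deg c (x * y) = ∑ a ∈ L, part deg a x * part deg (c - a) y := by
  classical
  suffices key : ∀ (S T : Finset G) (f f' : G → K), (∀ g ∈ S, deg g ∈ L) →
      (∀ g ∈ S, ∀ h ∈ T, deg (g * h) = deg g + deg h) →
      part deg c ((∑ g ∈ S, MonoidAlgebra.single g (f g)) * ∑ h ∈ T, MonoidAlgebra.single h (f' h)) =
        ∑ a ∈ L, part deg a (∑ g ∈ S, MonoidAlgebra.single g (f g)) *
          part deg (c - a) (∑ h ∈ T, MonoidAlgebra.single h (f' h)) by
    have := key x.coeff.support y.coeff.support x.coeff y.coeff hL hdeg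
    rwa [← eq_sum_single, ← eq_sum_single] at this
  intro S T f f' hL hdeg
  simp only [part_sum, part_single, Finset.sum_mul, Finset.mul_sum, single_mul_single]
  rw [Finset.sum_comm (s := L)]
  refine Finset.sum_congr rfl fun h hh => ?_
  rw [Finset.sum_comm (s := L)]
  refine Finset.sum_congr rfl fun g hg => ?_
  rw [hdeg g hg h hh, Finset.sum_eq_single_of_mem (deg g) (hL g hg)
    (fun a _ ha => by simp [Ne.symm ha])]
  by_cases e : deg h = c - deg g
  · rw [if_pos (by omega), if_pos rfl, if_pos e, single_mul_single]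
  · rw [if_neg (by omega), if_pos rfl, if_neg e, mul_zero]

/-- Injectivity of the row action. -/
def RowInjective {R : Type} [Semiring R] {I J : Type} [Fintype I] (A : Matrix I J R) : Prop :=
  ∀ y : I → R, y ᵥ* A = 0 → y = 0

lemma exists_right_inverse {I J : Type} [Fintype I] [DecidableEq I] [Fintype J] [DecidableEq J]
    (E : Matrix I J K) (hE : RowInjective E) : ∃ C : Matrix J I K, E * C = 1 := by
  obtain ⟨f, hf⟩ := LinearMap.exists_leftInverse_of_injective E.vecMulLinear
    (LinearMap.ker_eq_bot'.2 fun y hy => hE y hy)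
  refine ⟨Matrix.of fun j i => f (Pi.single j 1) i, ?_⟩
  ext i i'
  have h1 := congrFun (LinearMap.congr_fun hf (Pi.single i 1)) i'
  simp only [LinearMap.comp_apply, vecMulLinear_apply, single_one_vecMul, LinearMap.id_apply] at h1
  have h2 : E.row i = ∑ j, E i j • (Pi.single j 1 : J → K) := pi_eq_sum_univ' (E i)
  rw [h2, map_sum] at h1
  simp only [map_smul, Finset.sum_apply, Pi.smul_apply, smul_eq_mul] at h1
  simp only [Matrix.mul_apply, Matrix.of_apply, Matrix.one_apply]
  rw [h1, Pi.single_apply]
  simp [eq_comm]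

/-- If an integral Laurent matrix is injective at one, it is injective. -/
lemma laurent_injective {I J : Type} [Fintype I] [Fintype J]
    (A : Matrix I J (LaurentPolynomial K)) (e : LaurentPolynomial K →ₐ[K] K)
    (hA : RowInjective (A.map e)) : RowInjective A := by
  classical
  obtain ⟨C, hC⟩ := exists_right_inverse _ hA
  intro y hy
  set C' : Matrix J I (LaurentPolynomial K) := C.map (algebraMap K _) with hC'
  have hdet : (A * C').det ≠ 0 := by
    intro h0
    have h1 := congrArg e h0
    rw [AlgHom.map_det, AlgHom.mapMatrix_apply, Matrix.map_mul, map_zero] at h1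
    have : C'.map e = C := by
      ext j i
      simp only [hC', Matrix.map_apply, AlgHom.commutes]
      rfl
    rw [this, hC, det_one] at h1
    exact one_ne_zero h1
  exact eq_zero_of_vecMul_eq_zero hdet (by rw [← vecMul_vecMul, hy, zero_vecMul])

/-- The measure of the kernel vector. -/
noncomputable def rowExcess {I : Type} [Fintype I] (x : I → MonoidAlgebra K G) : ℕ :=
  (∑ i, (x i).coeff.support.card) - Fintype.card I

/-- The measure of the matrix. -/
noncomputable def colExcess {I J : Type} [Fintype I] [Fintype J]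
    (A : Matrix I J (MonoidAlgebra K G)) : ℕ := by
  classical
  exact (∑ i, ∑ j, (A i j).coeff.support.card) -
    (Finset.univ.filter fun j => ∃ i, A i j ≠ 0).card

lemma card_support_translate (g : G) (x : MonoidAlgebra K G) (h : G) :
    (MonoidAlgebra.single g (1 : K) * x * MonoidAlgebra.single h 1).coeff.support.card = x.coeff.support.card := by
  classical
  have : (MonoidAlgebra.single g (1 : K) * x * MonoidAlgebra.single h 1).coeff.support =
      x.coeff.support.map ⟨fun u => g * u * h, fun a b e => mul_left_cancel (mul_right_cancel e)⟩ := by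
    ext m
    simp only [Finsupp.mem_support_iff, coeff_mul_single_apply, coeff_single_mul_apply, one_mul,
      mul_one, Finset.mem_map]
    constructor
    · exact fun hm => ⟨g⁻¹ * (m * h⁻¹), hm, show g * (g⁻¹ * (m * h⁻¹)) * h = m by group⟩
    · rintro ⟨a, ha, rfl⟩
      simpa [mul_assoc] using ha
  rw [this, Finset.card_map]

/-- The statement at given measures, for kernel vectors with no zero entry. -/
def Claim (K G : Type) [Field K] [Group G] (n₁ n₂ : ℕ) : Prop :=
  ∀ (I J : Type) [Fintype I] [Fintype J] (A : Matrix I J (MonoidAlgebra K G))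
    (x : I → MonoidAlgebra K G), RowInjective (A.map eps) → x ᵥ* A = 0 → (∀ i, x i ≠ 0) →
    rowExcess x = n₁ → colExcess A = n₂ → IsEmpty I

lemma part_ne_zero_of_mem {deg : G → ℤ} {x : MonoidAlgebra K G} {g : G}
    (hg : g ∈ x.coeff.support) : part deg (deg g) x ≠ 0 := by
  intro h
  have h1 : (part deg (deg g) x).coeff g = x.coeff g := by simp [part]
  rw [h, coeff_zero, Finsupp.zero_apply] at h1
  exact Finsupp.mem_support_iff.1 hg h1.symm

lemma claim_all (hG : LocallyIndicable G) : ∀ n₁ n₂, Claim K G n₁ n₂ := by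
  classical
  intro n₁
  induction n₁ using Nat.strong_induction_on with
  | _ n₁ ih1 =>
  intro n₂
  induction n₂ using Nat.strong_induction_on with
  | _ n₂ ih2 =>
  intro I J _ _ A₀ x₀ hA₀ hx₀ hne₀ hn₁ hn₂
  have hpick : ∀ i, ∃ g, g ∈ (x₀ i).coeff.support := fun i => by
    obtain ⟨g, hg⟩ := Finsupp.support_nonempty_iff.2 (mt coeff_eq_zero.1 (hne₀ i))
    exact ⟨g, hg⟩
  choose g hg using hpick
  let A₁ : Matrix I J (MonoidAlgebra K G) := fun i j => MonoidAlgebra.single (g i) 1 * A₀ i j
  have hcol : ∀ j, ∃ h : G, (∃ i, A₁ i j ≠ 0) → ∃ i, h ∈ (A₁ i j).coeff.support := fun j => by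
    by_cases hj : ∃ i, A₁ i j ≠ 0
    · obtain ⟨i, hi⟩ := hj
      obtain ⟨h, hh⟩ := Finsupp.support_nonempty_iff.2 (mt coeff_eq_zero.1 hi)
      exact ⟨h, fun _ => ⟨i, hh⟩⟩
    · exact ⟨1, fun h' => absurd h' hj⟩
  choose h hh using hcol
  let x : I → MonoidAlgebra K G := fun i => x₀ i * MonoidAlgebra.single (g i)⁻¹ 1
  let A : Matrix I J (MonoidAlgebra K G) := fun i j => A₁ i j * MonoidAlgebra.single (h j)⁻¹ 1
  have hx1 : ∀ i, (1 : G) ∈ (x i).coeff.support := fun i => by
    simpa [x, Finsupp.mem_support_iff, coeff_mul_single_apply] using hg i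
  have hA1 : ∀ j, (∃ i, A i j ≠ 0) → ∃ i, (1 : G) ∈ (A i j).coeff.support := fun j hj => by
    obtain ⟨i, hi⟩ := hj
    obtain ⟨i', hi'⟩ := hh j ⟨i, fun e => hi (by simp [A, e])⟩
    exact ⟨i', by simpa [A, Finsupp.mem_support_iff, coeff_mul_single_apply] using hi'⟩
  have heps : A.map eps = A₀.map eps := by
    ext i j
    show eps (A i j) = eps (A₀ i j)
    simp [A, A₁, eps_single]
  have hxA : x ᵥ* A = 0 := by
    funext j
    have h0 : ∑ i, x₀ i * A₀ i j = 0 := congrFun hx₀ j
    show ∑ i, x i * A i j = 0
    have : ∀ i, x i * A i j = x₀ i * A₀ i j * MonoidAlgebra.single (h j)⁻¹ 1 := fun i => by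
      simp only [x, A, A₁, mul_assoc]
      congr 1
      rw [← mul_assoc (MonoidAlgebra.single (g i)⁻¹ (1 : K)) (MonoidAlgebra.single (g i) 1), single_mul_single, inv_mul_cancel,
        one_mul, ← one_def, one_mul]
    simp only [this, ← Finset.sum_mul, h0, zero_mul]
  have hxc : ∀ i, (x i).coeff.support.card = (x₀ i).coeff.support.card := fun i => by
    have := card_support_translate 1 (x₀ i) (g i)⁻¹
    rwa [← one_def, one_mul] at this
  have hAc : ∀ i j, (A i j).coeff.support.card = (A₀ i j).coeff.support.card := fun i j =>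
    card_support_translate (g i) (A₀ i j) (h j)⁻¹
  have hAne : ∀ i j, A i j ≠ 0 ↔ A₀ i j ≠ 0 := fun i j => by
    rw [← coeff_eq_zero.ne, ← Finsupp.support_nonempty_iff, ← Finset.card_pos, hAc,
      Finset.card_pos, Finsupp.support_nonempty_iff, coeff_eq_zero.ne]
  have hinj : RowInjective (A.map eps) := heps ▸ hA₀
  -- the subgroup generated by all supports
  set S : Finset G := (Finset.univ.biUnion fun i => (x i).coeff.support) ∪
    Finset.univ.biUnion fun p : I × J => (A p.1 p.2).coeff.support with hS
  have hxS : ∀ i, ∀ u ∈ (x i).coeff.support, u ∈ S := fun i u hu =>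
    Finset.mem_union_left _ (Finset.mem_biUnion.2 ⟨i, Finset.mem_univ _, hu⟩)
  have hAS : ∀ i j, ∀ u ∈ (A i j).coeff.support, u ∈ S := fun i j u hu =>
    Finset.mem_union_right _ (Finset.mem_biUnion.2 ⟨(i, j), Finset.mem_univ _, hu⟩)
  set H := Subgroup.closure (S : Set G) with hH
  by_cases hbot : H = ⊥
  · have htriv : ∀ u ∈ S, u = 1 := fun u hu => by
      have : u ∈ H := Subgroup.subset_closure hu
      rwa [hbot, Subgroup.mem_bot] at this
    by_contra hI
    rw [not_isEmpty_iff] at hI
    obtain ⟨i⟩ := hI
    have hsingle : x i = MonoidAlgebra.single 1 (eps (x i)) := by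
      have hsub : (x i).coeff.support = {1} :=
        Finset.eq_singleton_iff_unique_mem.2 ⟨hx1 i, fun u hu => htriv u (hxS i u hu)⟩
      have := eq_sum_single (x i)
      rw [hsub, Finset.sum_singleton] at this
      rw [this, eps_single]
    have h0 : (fun i => eps (x i)) ᵥ* (A.map eps) = 0 := funext fun j => by
      show ∑ i, eps (x i) * eps (A i j) = 0
      have : eps ((x ᵥ* A) j) = 0 := by rw [hxA]; simp
      simpa [vecMul, dotProduct, map_sum, map_mul] using this
    have h1 := congrFun (hinj _ h0) i
    refine Finsupp.mem_support_iff.1 (hx1 i) ?_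
    rw [hsingle, h1]
    simp
  -- a degree on the subgroup
  obtain ⟨ψ, hψ⟩ := hG H ((Subgroup.fg_iff H).2 ⟨S, rfl, S.finite_toSet⟩) hbot
  let deg : G → ℤ := fun u => if hu : u ∈ H then Multiplicative.toAdd (ψ ⟨u, hu⟩) else 0
  have hmul : ∀ u ∈ H, ∀ w ∈ H, deg (u * w) = deg u + deg w := fun u hu w hw => by
    simp only [deg, dif_pos hu, dif_pos hw, dif_pos (H.mul_mem hu hw)]
    rw [← toAdd_mul, ← map_mul]
    rfl
  have hdeg1 : deg 1 = 0 := by
    have := hmul 1 H.one_mem 1 H.one_mem
    rw [mul_one] at this
    omega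
  have hnon : ∃ u ∈ S, deg u ≠ 0 := by
    by_contra hzero
    push Not at hzero
    refine hψ (MonoidHom.ext fun u => ?_)
    have key : deg u.1 = 0 := by
      have : ∀ v, v ∈ H → deg v = 0 := fun v hv => by
        induction hv using Subgroup.closure_induction with
        | mem w hw => exact hzero w hw
        | one => exact hdeg1
        | mul a b ha hb iha ihb => rw [hmul a ha b hb, iha, ihb, add_zero]
        | inv a ha iha =>
          have := hmul a⁻¹ (H.inv_mem ha) a ha
          rw [inv_mul_cancel, hdeg1, iha] at this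
          omega
      exact this _ u.2
    simp only [deg, dif_pos u.2] at key
    exact Multiplicative.toAdd.injective (by simpa using key)
  -- the graded data
  let L : I → Finset ℤ := fun i => (x i).coeff.support.image deg
  let C : J → Finset ℤ := fun j => Finset.univ.biUnion fun i =>
    Finset.image₂ (· + ·) (L i) ((A i j).coeff.support.image deg)
  let A' : Matrix (Σ i, {a // a ∈ L i}) (Σ j, {c // c ∈ C j}) (MonoidAlgebra K G) :=
    fun p q => part deg (q.2.1 - p.2.1) (A p.1 q.1)
  let x' : (Σ i, {a // a ∈ L i}) → MonoidAlgebra K G := fun p => part deg p.2.1 (x p.1)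
  have hx'A' : x' ᵥ* A' = 0 := by
    funext q
    show ∑ p, x' p * A' p q = 0
    rw [Fintype.sum_sigma]
    have : part deg q.2.1 ((x ᵥ* A) q.1) = 0 := by rw [hxA, Pi.zero_apply, part_zero]
    rw [← this]
    show _ = part deg q.2.1 (∑ i, x i * A i q.1)
    rw [part_sum]
    refine Finset.sum_congr rfl fun i _ => ?_
    rw [part_mul deg q.2.1 (x i) (A i q.1) (L i) (fun u hu => Finset.mem_image_of_mem _ hu)
      (fun u hu w hw => hmul u (Subgroup.subset_closure (hxS i u hu)) w
        (Subgroup.subset_closure (hAS i _ w hw)))]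
    exact Finset.sum_coe_sort (L i) fun a => part deg a (x i) * part deg (q.2.1 - a) (A i q.1)
  have hx'ne : ∀ p, x' p ≠ 0 := fun p => by
    obtain ⟨u, hu, he⟩ := Finset.mem_image.1 p.2.2
    have := part_ne_zero_of_mem (deg := deg) hu
    rwa [he] at this
  have hinj' : RowInjective (A'.map eps) := by
    intro y hy
    let Aφ : Matrix I J (LaurentPolynomial K) := fun i j =>
      ∑ u ∈ (A i j).coeff.support, AddMonoidAlgebra.single (deg u) ((A i j).coeff u)
    let e : LaurentPolynomial K →ₐ[K] K := AddMonoidAlgebra.lift K K ℤ 1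
    have heA : Aφ.map e = A.map eps := by
      ext i j
      show e (Aφ i j) = eps (A i j)
      conv_rhs => rw [eq_sum_single (A i j)]
      simp [Aφ, e, eps_single, -LaurentPolynomial.single_eq_C_mul_T]
    have hφ := laurent_injective Aφ e (heA ▸ hinj)
    let Y : I → LaurentPolynomial K := fun i =>
      ∑ a : {a // a ∈ L i}, AddMonoidAlgebra.single a.1 (y ⟨i, a⟩)
    have hcoef : ∀ (i : I) (j : J) (d : ℤ), (Aφ i j).coeff d = eps (part deg d (A i j)) := by
      intro i j d
      conv_rhs => rw [eq_sum_single (A i j), part_sum, map_sum]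
      simp [Aφ, part_single, Finsupp.single_apply, apply_ite eps, eps_single, -LaurentPolynomial.single_eq_C_mul_T]
    have hY : Y ᵥ* Aφ = 0 := funext fun j => by
      refine AddMonoidAlgebra.coeff_injective (Finsupp.ext fun c => ?_)
      show ((∑ i, Y i * Aφ i j).coeff) c = 0
      have expand : ((∑ i, Y i * Aφ i j).coeff) c =
          ∑ p : (Σ i, {a // a ∈ L i}), y p * eps (part deg (c - p.2.1) (A p.1 j)) := by
        rw [Fintype.sum_sigma, AddMonoidAlgebra.coeff_sum, Finsupp.finsetSum_apply]
        refine Finset.sum_congr rfl fun i _ => ?_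
        simp only [Y, Finset.sum_mul, AddMonoidAlgebra.coeff_sum, Finsupp.finsetSum_apply,
          AddMonoidAlgebra.coeff_single_mul_apply, hcoef, sub_eq_add_neg, add_comm]
      rw [expand]
      by_cases hc : c ∈ C j
      · exact congrFun hy ⟨j, c, hc⟩
      · refine Finset.sum_eq_zero fun p _ => ?_
        have : part deg (c - p.2.1) (A p.1 j) = 0 := by
          refine coeff_injective (Finsupp.ext fun u => ?_)
          simp only [part, coeff_zero, Finsupp.zero_apply, Finsupp.filter_apply, ite_eq_right_iff]
          intro hu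
          by_contra hne
          refine hc (Finset.mem_biUnion.2 ⟨p.1, Finset.mem_univ _, ?_⟩)
          exact Finset.mem_image₂.2 ⟨p.2.1, p.2.2, deg u,
            Finset.mem_image_of_mem _ (Finsupp.mem_support_iff.2 hne), by omega⟩
        rw [this, map_zero, mul_zero]
    funext p
    have := congrArg (fun f : LaurentPolynomial K => f.coeff p.2.1) (congrFun (hφ Y hY) p.1)
    simp only [Y, AddMonoidAlgebra.coeff_sum, AddMonoidAlgebra.coeff_single,
      Finsupp.finsetSum_apply, Finsupp.single_apply, Pi.zero_apply, AddMonoidAlgebra.coeff_zero,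
      Finsupp.zero_apply] at this
    rw [Finset.sum_eq_single_of_mem p.2 (Finset.mem_univ _)
      (fun a _ ha => if_neg fun e => ha (Subtype.ext e)), if_pos rfl] at this
    simpa using this
  -- measures
  have hsumx : ∑ p, (x' p).coeff.support.card = ∑ i, (x₀ i).coeff.support.card := by
    rw [Fintype.sum_sigma]
    refine Finset.sum_congr rfl fun i _ => ?_
    rw [← hxc, Finset.sum_coe_sort (L i) fun a => (part deg a (x i)).coeff.support.card]
    exact sum_card_part deg _ _ fun u hu => Finset.mem_image_of_mem _ hu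
  have hzero_mem : ∀ i, (0 : ℤ) ∈ L i := fun i => Finset.mem_image.2 ⟨1, hx1 i, hdeg1⟩
  have hcardI : Fintype.card (Σ i, {a // a ∈ L i}) = ∑ i, (L i).card := by simp
  have hLle : ∀ i, (L i).card ≤ (x₀ i).coeff.support.card := fun i =>
    (Finset.card_image_le).trans (hxc i).le
  have hIle : ∀ i, 1 ≤ (L i).card := fun i => Finset.card_pos.2 ⟨0, hzero_mem i⟩
  have hfin : IsEmpty (Σ i, {a // a ∈ L i}) := by
    by_cases hlev : ∀ i, L i = {0}
    · have hr : rowExcess x' = n₁ := by
        rw [← hn₁, rowExcess, rowExcess, hsumx, hcardI]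
        simp [hlev]
      have hCimg : ∀ j, C j = Finset.univ.biUnion fun i => (A i j).coeff.support.image deg := by
        intro j
        refine Finset.biUnion_congr rfl fun i _ => ?_
        simp [hlev i]
      have hsumA : ∑ p, ∑ q, (A' p q).coeff.support.card = ∑ i, ∑ j, (A₀ i j).coeff.support.card := by
        rw [Fintype.sum_sigma]
        refine Finset.sum_congr rfl fun i _ => ?_
        rw [Finset.sum_coe_sort (L i) fun a =>
          ∑ q : (Σ j, {c // c ∈ C j}), (part deg (q.2.1 - a) (A i q.1)).coeff.support.card,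
          hlev i, Finset.sum_singleton, Fintype.sum_sigma]
        refine Finset.sum_congr rfl fun j _ => ?_
        rw [← hAc, Finset.sum_coe_sort (C j) fun c => (part deg (c - 0) (A i j)).coeff.support.card]
        simp only [sub_zero]
        refine sum_card_part deg _ _ fun u hu => ?_
        rw [hCimg]
        exact Finset.mem_biUnion.2 ⟨i, Finset.mem_univ _, Finset.mem_image_of_mem _ hu⟩
      have hall : ∀ q : (Σ j, {c // c ∈ C j}), ∃ p, A' p q ≠ 0 := fun q => by
        have hc : q.2.1 ∈ Finset.univ.biUnion fun i => (A i q.1).coeff.support.image deg :=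
          hCimg q.1 ▸ q.2.2
        obtain ⟨i, -, hi⟩ := Finset.mem_biUnion.1 hc
        obtain ⟨u, hu, hud⟩ := Finset.mem_image.1 hi
        refine ⟨⟨i, 0, hzero_mem i⟩, ?_⟩
        show part deg (q.2.1 - 0) (A i q.1) ≠ 0
        rw [sub_zero, ← hud]
        exact part_ne_zero_of_mem hu
      have hlt : (Finset.univ.filter fun j => ∃ i, A₀ i j ≠ 0).card < ∑ j, (C j).card := by
        rw [Finset.card_filter]
        refine Finset.sum_lt_sum (fun j _ => ?_) ?_
        · split_ifs with hj
          · obtain ⟨i, hi⟩ := hj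
            obtain ⟨i', hi'⟩ := hA1 j ⟨i, (hAne i j).2 hi⟩
            exact Finset.card_pos.2 ⟨deg 1, by
              rw [hCimg]; exact Finset.mem_biUnion.2
                ⟨i', Finset.mem_univ _, Finset.mem_image_of_mem _ hi'⟩⟩
          · exact Nat.zero_le _
        · obtain ⟨u, hu, hud⟩ := hnon
          rcases Finset.mem_union.1 hu with hu' | hu'
          · obtain ⟨i, -, hi⟩ := Finset.mem_biUnion.1 hu'
            have hmem : deg u ∈ L i := Finset.mem_image_of_mem _ hi
            rw [hlev, Finset.mem_singleton] at hmem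
            exact absurd hmem hud
          · obtain ⟨⟨i, j⟩, -, hi⟩ := Finset.mem_biUnion.1 hu'
            refine ⟨j, Finset.mem_univ _, ?_⟩
            have hA0 : A i j ≠ 0 := fun e => by simp [e] at hi
            obtain ⟨i', hi'⟩ := hA1 j ⟨i, hA0⟩
            rw [if_pos ⟨i, (hAne i j).1 hA0⟩]
            refine Finset.one_lt_card.2 ⟨deg u, ?_, deg 1, ?_, by rw [hdeg1]; exact hud⟩ <;>
              rw [hCimg]
            · exact Finset.mem_biUnion.2 ⟨i, Finset.mem_univ _, Finset.mem_image_of_mem _ hi⟩
            · exact Finset.mem_biUnion.2 ⟨i', Finset.mem_univ _, Finset.mem_image_of_mem _ hi'⟩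
      have hle : (∑ j, (C j).card) ≤ ∑ i, ∑ j, (A₀ i j).coeff.support.card := by
        rw [Finset.sum_comm]
        refine Finset.sum_le_sum fun j _ => ?_
        rw [hCimg]
        refine Finset.card_biUnion_le.trans (Finset.sum_le_sum fun i _ => ?_)
        exact Finset.card_image_le.trans (hAc i j).le
      refine ih2 (colExcess A') ?_ _ _ A' x' hinj' hx'A' hx'ne hr rfl
      rw [← hn₂]
      simp only [colExcess]
      rw [hsumA, Finset.filter_true_of_mem (fun q _ => hall q), Finset.card_univ]
      simp only [Fintype.card_sigma, Fintype.card_coe]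
      omega
    · refine ih1 (rowExcess x') ?_ _ _ _ A' x' hinj' hx'A' hx'ne rfl rfl
      push Not at hlev
      obtain ⟨i₀, hi₀⟩ := hlev
      rw [← hn₁, rowExcess, rowExcess, hsumx, hcardI]
      have h1 : Fintype.card I < ∑ i, (L i).card := by
        rw [Fintype.card_eq_sum_ones]
        refine Finset.sum_lt_sum (fun i _ => hIle i) ⟨i₀, Finset.mem_univ _, ?_⟩
        rcases (hIle i₀).lt_or_eq with hl | he
        · exact hl
        · obtain ⟨a, ha⟩ := Finset.card_eq_one.1 he.symm
          have := hzero_mem i₀
          rw [ha, Finset.mem_singleton] at this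
          exact absurd (this ▸ ha) hi₀
      have h2 : ∑ i, (L i).card ≤ ∑ i, (x₀ i).coeff.support.card :=
        Finset.sum_le_sum fun i _ => hLle i
      omega
  exact ⟨fun i => hfin.false ⟨i, 0, hzero_mem i⟩⟩

/-- Howie-Schneebeli: injective augmentation forces injectivity over locally indicable groups. -/
theorem rowInjective_of_eps (hG : LocallyIndicable G) {I J : Type} [Fintype I] [Fintype J]
    (A : Matrix I J (MonoidAlgebra K G)) (hA : RowInjective (A.map eps)) : RowInjective A := by
  classical
  intro x hx
  let I' := {i // x i ≠ 0}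
  let B : Matrix I' J (MonoidAlgebra K G) := fun i j => A i.1 j
  have hB : RowInjective (B.map eps) := by
    intro y hy
    let y₀ : I → K := fun i => if hi : x i = 0 then 0 else y ⟨i, hi⟩
    have h0 : y₀ ᵥ* A.map eps = 0 := funext fun j => by
      have := congrFun hy j
      show ∑ i, y₀ i * eps (A i j) = 0
      rw [← Finset.sum_subset (Finset.subset_univ (Finset.univ.filter fun i => x i ≠ 0))
        (fun i _ hi => by
          have : x i = 0 := by simpa using hi
          simp [y₀, this])]
      rw [Finset.sum_subtype _ (p := fun i => x i ≠ 0) (fun i => by simp)]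
      refine Eq.trans (Finset.sum_congr rfl fun i _ => ?_) this
      simp only [y₀, B, dif_neg i.2]
      rfl
    funext i
    simpa only [y₀, dif_neg i.2, Pi.zero_apply] using congrFun (hA y₀ h0) i.1
  have hxB : (fun i : I' => x i.1) ᵥ* B = 0 := funext fun j => by
    have := congrFun hx j
    show ∑ i : I', x i.1 * A i.1 j = 0
    rw [← Finset.sum_subtype (Finset.univ.filter fun i => x i ≠ 0) (fun i => by simp)
      (fun i => x i * A i j)]
    rw [Finset.sum_subset (Finset.subset_univ _) (fun i _ hi => by
      simp only [Finset.mem_filter, Finset.mem_univ, true_and, not_not] at hi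
      simp [hi])]
    exact this
  have hempty : IsEmpty I' := claim_all hG _ _ I' J B _ hB hxB (fun i => i.2) rfl rfl
  funext i
  by_contra hi
  exact hempty.false ⟨i, hi⟩

end Vale.Agent.P194.VirtLI
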